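import Vale.Agent.P232.T1
import Vale.Agent.P232.Phase1.Spec

/-!
# P232: T1 for the case assembly: orientation of the bands and their budget
-/

open MeasureTheory Set Filter
open scoped Real Topology

noncomputable section

namespace Vale.Agent.P232.T1

variable {D : Set R3} {i j k : Fin 3}

theorem antitone_u (hdown : ∀ x ∈ D, ∀ y ∈ box, y ≤ x → y ∈ D) :
    Antitone fun z => rightHeight (heightExt D i j z) := fun a b h => by
  refine le_csInf ((nonempty_Ioo.2 zero_lt_one).image _) ?_
  rintro _ ⟨x, hx, rfl⟩
  exact ((isHeight_ext hdown b).rightHeight_le hx).trans (antitone_heightExt_fst hdown x h)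

theorem antitone_w (hdown : ∀ x ∈ D, ∀ y ∈ box, y ≤ x → y ∈ D) (hij : i ≠ j) :
    Antitone fun z => topWidth (heightExt D i j z) := by
  simp only [(topWidth_eq_rightHeight hdown hij _).1]
  exact antitone_u hdown

/-- All bands of one direction have the same orientation, so their widths have one budget. -/
theorem integral_bandWidth_le (hdown : ∀ x ∈ D, ∀ y ∈ box, y ≤ x → y ∈ D) (hij : i ≠ j)
    (hki : k ≠ i) (hkj : k ≠ j) (hall : ∀ l, l = i ∨ l = j ∨ l = k) {au aw G : ℝ}
    (hau : Tendsto (sliceArea D k j) (𝓝[<] 1) (𝓝 au))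
    (haw : Tendsto (sliceArea D k i) (𝓝[<] 1) (𝓝 aw)) (hu : au ≤ G) (hw : aw ≤ G) :
    ∫ z in (0 : ℝ)..1, bandWidth D i j z ≤ G := by
  have eu := tendsto_nhds_unique (tendsto_sliceArea hdown hij hki hkj hall).2 hau
  have ew := tendsto_nhds_unique (tendsto_sliceArea_transpose hdown hij hki hkj hall).2 haw
  have hI := intervalIntegrable_bandWidth hdown hij
  have hu0 : ∀ z, 0 ≤ rightHeight (heightExt D i j z) := fun z =>
    (isHeight_ext hdown z).slice.u_nonneg
  by_cases hB : ∃ z, topWidth (heightExt D i j z) = 0 ∧ rightHeight (heightExt D i j z) ≠ 0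
  · obtain ⟨z₀, hz₀w, hz₀u⟩ := hB
    refine le_trans ?_ (eu.le.trans hu)
    refine intervalIntegral.integral_mono_on zero_le_one hI
      (antitone_u hdown).intervalIntegrable fun z _ => ?_
    unfold bandWidth
    split_ifs with h1 h2
    · exact le_rfl
    · exfalso
      rcases le_total z z₀ with h | h
      · refine hz₀u (le_antisymm ?_ (hu0 z₀))
        calc rightHeight (heightExt D i j z₀) ≤ rightHeight (heightExt D i j z) := antitone_u hdown h
          _ = 0 := h2
      · refine h1 (le_antisymm ?_ IsHeight.topWidth_nonneg)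
        calc topWidth (heightExt D i j z) ≤ topWidth (heightExt D i j z₀) :=
              antitone_w hdown hij h
          _ = 0 := hz₀w
    · exact hu0 z
  · refine le_trans ?_ (ew.le.trans hw)
    refine intervalIntegral.integral_mono_on zero_le_one hI
      (antitone_w hdown hij).intervalIntegrable fun z _ => ?_
    unfold bandWidth
    split_ifs with h1 h2
    · have h3 : rightHeight (heightExt D i j z) = 0 := not_not.1 fun h => hB ⟨z, h1, h⟩
      rw [h3]
      exact IsHeight.topWidth_nonneg
    · exact le_rfl
    · exact IsHeight.topWidth_nonneg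

/-- **T1Spec.** -/
theorem t1Spec : Phase1.T1Spec := by
  intro D M h i j k hij hki hkj hall a b au aw ha hb hau haw hu hw lam E mu c s hmu hc hs hc0 hs0
    hcs h1 h2
  have hG := integral_bandWidth_le h.down hij hki hkj hall hau haw hu hw
  have hmid := sliceArea_between h ha hb (z := 1 / 2) ⟨by norm_num, by norm_num⟩
  have hab : a ≤ b := hmid.1.trans hmid.2
  have hc1 : ∀ t, c t ≤ 1 := fun t => by nlinarith [hcs t, sq_nonneg (s t), hc0 t]
  have hm := master h hij ha hb hG hmu hc.continuousOn (fun t _ => hc0 t) (fun t _ => hc1 t) h1 h2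
  refine le_trans (add_le_add_right ?_ _) hm
  exact intervalIntegral.integral_mono_on hab (hs.intervalIntegrable a b)
    ((Continuous.sqrt (by fun_prop)).intervalIntegrable a b)
    fun t _ => Real.le_sqrt_of_sq_le (by linarith [hcs t])

end Vale.Agent.P232.T1
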