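import Vale.Agent.P232.T1
import Vale.Agent.P232.Calib.Knots

/-!
# P232: T1 from values at nodes

`c²` and `s` are interpolated linearly; by Cauchy-Schwarz and the concavity of `min (A, 1 - A)` the
conditions (i), (ii) are only needed at the nodes, with rational data.
-/

open MeasureTheory Set Filter
open scoped Real Topology

noncomputable section

namespace Vale.Agent.P232.T1

open Calib (Knot QKnot Valid lerp interp lastT lastT_ge trap qValid)

/-- `c` as a function: the root of the interpolated square. -/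
def cFun (l : List Knot) (x : ℝ) : ℝ := Real.sqrt (interp (fun k => k.c ^ 2) l x)

/-- Condition (i) at a node. -/
def CondI (lam E : ℝ) (k : Knot) : Prop :=
  lam * k.t + E ≤ k.c * Real.sqrt (π * min k.t (1 - k.t))

/-- Condition (ii) at a node, `q ≥ 1/π`. -/
def CondII (lam E mu q : ℝ) (k : Knot) : Prop := lam * k.t + E - mu * (k.t - q) ≤ k.c

/-- The conditions at the nodes; (ii) is skipped on segments outside the middle. -/
def Checked (lam E mu qlo q : ℝ) : List Knot → Prop
  | [] => True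
  | [k] => CondI lam E k
  | k :: k' :: r => CondI lam E k ∧
      (k'.t ≤ qlo ∨ 1 - qlo ≤ k.t ∨ (CondII lam E mu q k ∧ CondII lam E mu q k')) ∧
      Checked lam E mu qlo q (k' :: r)

theorem cauchy_two {ρ a b c d : ℝ} (h0 : 0 ≤ ρ) (h1 : ρ ≤ 1) (hb : 0 ≤ b) (hd : 0 ≤ d) :
    (1 - ρ) * (a * Real.sqrt b) + ρ * (c * Real.sqrt d) ≤
      Real.sqrt (lerp ρ (a ^ 2) (c ^ 2)) * Real.sqrt (lerp ρ b d) := by
  unfold lerp
  have h1' : 0 ≤ 1 - ρ := sub_nonneg.2 h1
  rw [← Real.sqrt_mul (by positivity)]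
  refine Real.le_sqrt_of_sq_le ?_
  set sb := Real.sqrt b with hsb
  set sd := Real.sqrt d with hsd
  rw [← Real.sq_sqrt hb, ← Real.sq_sqrt hd, ← hsb, ← hsd]
  nlinarith [mul_nonneg (mul_nonneg h1' h0) (sq_nonneg (a * sd - c * sb))]

theorem checked_head : ∀ (r : List Knot) {k : Knot} {lam E mu qlo q : ℝ},
    Checked lam E mu qlo q (k :: r) → CondI lam E k
  | [], _, _, _, _, _, _, h => h
  | _ :: _, _, _, _, _, _, _, h => h.1

theorem valid_head : ∀ (r : List Knot) {k : Knot},
    Valid (k :: r) → 0 ≤ k.c ∧ 0 ≤ k.s ∧ k.c ^ 2 + k.s ^ 2 ≤ 1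
  | [], _, h => h
  | _ :: _, _, h => h.1

theorem sq_disc : ∀ l : List Knot, Valid l → ∀ x,
    0 ≤ interp (fun k => k.c ^ 2) l x ∧
      interp (fun k => k.c ^ 2) l x + interp Knot.s l x ^ 2 ≤ 1
  | [], _, _ => by simp [interp]
  | [k], h, _ => by
    simp only [interp]
    exact ⟨sq_nonneg _, h.2.2⟩
  | k :: k' :: r, h, x => by
    obtain ⟨⟨-, -, hq⟩, -, hr⟩ := h
    by_cases hx : x ≤ k'.t
    · simp only [interp, if_pos hx]
      obtain ⟨hr0, hr1⟩ := Calib.clamp_mem k.t k'.t x
      have hq' := (valid_head r hr).2.2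
      set ρ := Calib.clamp k.t k'.t x
      have h1 : 0 ≤ 1 - ρ := sub_nonneg.2 hr1
      unfold lerp
      refine ⟨by positivity, ?_⟩
      nlinarith [mul_le_mul_of_nonneg_left hq h1, mul_le_mul_of_nonneg_left hq' hr0,
        mul_nonneg (mul_nonneg h1 hr0) (sq_nonneg (k.s - k'.s))]
    · simp only [interp, if_neg hx]
      exact sq_disc (k' :: r) hr x

theorem cond_on {lam E mu qlo q : ℝ} (hmu : 0 ≤ mu) (hqlo : qlo ≤ 1 / π) (hq : 1 / π ≤ q) :
    ∀ (r : List Knot) (k : Knot), r ≠ [] → Valid (k :: r) → Checked lam E mu qlo q (k :: r) →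
      0 ≤ k.t → ∀ x, k.t ≤ x → x ≤ lastT k r → lastT k r ≤ 1 →
        lam * x + E ≤ cFun (k :: r) x * Real.sqrt (π * min x (1 - x)) ∧
          (1 / π ≤ x → x ≤ 1 - 1 / π → lam * x + E - mu * (x - 1 / π) ≤ cFun (k :: r) x)
  | [], _, h, _, _ => absurd rfl h
  | k' :: r, k, _, hv, hd => by
    intro hk0 x hx1 hx2 hlast
    by_cases hx : x ≤ k'.t
    swap
    · have e : cFun (k :: k' :: r) x = cFun (k' :: r) x := by
        simp only [cFun, interp, if_neg hx]
      rcases r with _ | ⟨k'', r⟩
      · exact absurd hx2 hx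
      rw [e]
      exact cond_on hmu hqlo hq (k'' :: r) k' (by simp) hv.2.2 hd.2.2
        (hk0.trans hv.2.1.le) x (le_of_not_ge hx) hx2 hlast
    simp only [cFun, interp, if_pos hx]
    rw [Calib.clamp_of_mem hv.2.1 hx1 hx]
    have hlt : 0 < k'.t - k.t := sub_pos.2 hv.2.1
    set ρ := (x - k.t) / (k'.t - k.t) with hρ
    have hρ0 : 0 ≤ ρ := div_nonneg (sub_nonneg.2 hx1) hlt.le
    have hρ1 : ρ ≤ 1 := (div_le_one hlt).2 (by linarith)
    have hρ1' : 0 ≤ 1 - ρ := sub_nonneg.2 hρ1
    have hxe : x = (1 - ρ) * k.t + ρ * k'.t := by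
      rw [hρ]; field_simp; ring
    have hk'1 : k'.t ≤ 1 := (lastT_ge r k' hv.2.2).trans hlast
    have hk1 : k.t ≤ 1 := hv.2.1.le.trans hk'1
    have hk'0 : 0 ≤ k'.t := hk0.trans hv.2.1.le
    constructor
    · have e1 := mul_le_mul_of_nonneg_left hd.1 hρ1'
      have e2 := mul_le_mul_of_nonneg_left (checked_head r hd.2.2) hρ0
      have hmin : 0 ≤ min k.t (1 - k.t) := le_min hk0 (sub_nonneg.2 hk1)
      have hmin' : 0 ≤ min k'.t (1 - k'.t) := le_min hk'0 (sub_nonneg.2 hk'1)
      refine le_trans ?_ ((cauchy_two hρ0 hρ1 (mul_nonneg Real.pi_pos.le hmin)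
        (mul_nonneg Real.pi_pos.le hmin')).trans
        (mul_le_mul_of_nonneg_left (Real.sqrt_le_sqrt ?_) (Real.sqrt_nonneg _)))
      · calc lam * x + E = (1 - ρ) * (lam * k.t + E) + ρ * (lam * k'.t + E) := by rw [hxe]; ring
          _ ≤ _ := add_le_add e1 e2
      · unfold lerp
        rw [← mul_left_comm π, ← mul_left_comm π, ← mul_add]
        refine mul_le_mul_of_nonneg_left (le_min ?_ ?_) Real.pi_pos.le
        · rw [hxe]
          exact add_le_add (mul_le_mul_of_nonneg_left (min_le_left _ _) hρ1')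
            (mul_le_mul_of_nonneg_left (min_le_left _ _) hρ0)
        · calc (1 - ρ) * min k.t (1 - k.t) + ρ * min k'.t (1 - k'.t)
              ≤ (1 - ρ) * (1 - k.t) + ρ * (1 - k'.t) :=
                add_le_add (mul_le_mul_of_nonneg_left (min_le_right _ _) hρ1')
                  (mul_le_mul_of_nonneg_left (min_le_right _ _) hρ0)
            _ = 1 - x := by rw [hxe]; ring
    intro hm1 hm2
    rcases hd.2.1 with h | h | ⟨h, h'⟩
    · obtain rfl : x = k'.t := le_antisymm hx (h.trans (hqlo.trans hm1))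
      have e : ρ = 1 := by rw [hρ, div_self hlt.ne']
      have hi := checked_head r hd.2.2
      have hc := (valid_head r hv.2.2).1
      have hs : Real.sqrt (π * min k'.t (1 - k'.t)) ≤ 1 :=
        Real.sqrt_le_one.2 ((mul_le_mul_of_nonneg_left ((min_le_left _ _).trans
          (h.trans hqlo)) Real.pi_pos.le).trans_eq (by field_simp))
      rw [e, show lerp 1 (k.c ^ 2) (k'.c ^ 2) = k'.c ^ 2 by simp [lerp], Real.sqrt_sq hc]
      nlinarith [mul_le_mul_of_nonneg_left hs hc, mul_nonneg hmu (sub_nonneg.2 hm1),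
        (show lam * k'.t + E ≤ k'.c * Real.sqrt (π * min k'.t (1 - k'.t)) from hi)]
    · obtain rfl : x = k.t := le_antisymm (hm2.trans (by linarith)) hx1
      have e : ρ = 0 := by rw [hρ, sub_self, zero_div]
      have hc := hv.1.1
      have hs : Real.sqrt (π * min k.t (1 - k.t)) ≤ 1 :=
        Real.sqrt_le_one.2 ((mul_le_mul_of_nonneg_left ((min_le_right _ _).trans
          (show 1 - k.t ≤ 1 / π by linarith)) Real.pi_pos.le).trans_eq (by field_simp))
      rw [e, show lerp 0 (k.c ^ 2) (k'.c ^ 2) = k.c ^ 2 by simp [lerp], Real.sqrt_sq hc]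
      nlinarith [mul_le_mul_of_nonneg_left hs hc, mul_nonneg hmu (sub_nonneg.2 hm1),
        (show lam * k.t + E ≤ k.c * Real.sqrt (π * min k.t (1 - k.t)) from hd.1)]
    · have e1 := mul_le_mul_of_nonneg_left h hρ1'
      have e2 := mul_le_mul_of_nonneg_left h' hρ0
      have ec := cauchy_two hρ0 hρ1 zero_le_one zero_le_one (a := k.c) (c := k'.c)
      simp only [Real.sqrt_one, mul_one, lerp, sub_add_cancel] at ec
      have hmuq : mu * (x - q) ≤ mu * (x - 1 / π) :=
        mul_le_mul_of_nonneg_left (by linarith) hmu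
      have eL : lam * x + E - mu * (x - q) =
          (1 - ρ) * (lam * k.t + E - mu * (k.t - q)) +
            ρ * (lam * k'.t + E - mu * (k'.t - q)) := by rw [hxe]; ring
      unfold lerp
      linarith

/-- The trapezoids of `s` on the segments inside `[lo, hi]`. -/
def trapIn (lo hi : ℝ) : List Knot → ℝ
  | [] => 0
  | [_] => 0
  | k :: k' :: r =>
    (if lo ≤ k.t ∧ k'.t ≤ hi then (k'.t - k.t) * (k.s + k'.s) / 2 else 0) + trapIn lo hi (k' :: r)

theorem integral_seg {k k' : Knot} {r : List Knot} (h : Valid (k :: k' :: r)) :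
    ∫ x in k.t..k'.t, interp Knot.s (k :: k' :: r) x = (k'.t - k.t) * (k.s + k'.s) / 2 := by
  have hc := Calib.continuous_interp Knot.s (k :: k' :: r) h
  have e := Calib.integral_interp (k' :: r) k h
  rw [lastT, ← intervalIntegral.integral_add_adjacent_intervals (hc.intervalIntegrable k.t k'.t)
    (hc.intervalIntegrable _ _), trap] at e
  have e2 : ∫ x in k'.t..lastT k' r, interp Knot.s (k :: k' :: r) x = trap (k' :: r) := by
    rw [← Calib.integral_interp r k' h.2.2]
    refine intervalIntegral.integral_congr fun x hx => ?_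
    rw [uIcc_of_le (lastT_ge r k' h.2.2)] at hx
    by_cases hx' : x ≤ k'.t
    · obtain rfl : x = k'.t := le_antisymm hx' hx.1
      rw [Calib.interp_first _ r k' h.2.2]
      simp only [interp, if_pos le_rfl, Calib.clamp_of_mem h.2.1 h.2.1.le le_rfl,
        div_self (sub_pos.2 h.2.1).ne', lerp]
      ring
    · simp only [interp, if_neg hx']
  linarith

theorem trapIn_le (lo hi : ℝ) : ∀ (r : List Knot) (k : Knot), Valid (k :: r) →
    trapIn lo hi (k :: r) ≤
      ∫ x in k.t..lastT k r, (Icc lo hi).indicator (interp Knot.s (k :: r)) x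
  | [], k, _ => by simp [trapIn, lastT]
  | k' :: r, k, h => by
    have hc := Calib.continuous_interp Knot.s (k :: k' :: r) h
    have hI : ∀ x y : ℝ,
        IntervalIntegrable ((Icc lo hi).indicator (interp Knot.s (k :: k' :: r))) volume x y :=
      fun x y => by
        have := hc.intervalIntegrable (μ := volume) x y
        rw [intervalIntegrable_iff] at this ⊢
        exact this.indicator measurableSet_Icc
    have h0 : ∀ x, 0 ≤ (Icc lo hi).indicator (interp Knot.s (k :: k' :: r)) x :=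
      indicator_nonneg fun x _ => (Calib.interp_disc _ h x).2.1
    have hle : k'.t ≤ lastT k' r := lastT_ge r k' h.2.2
    rw [lastT, ← intervalIntegral.integral_add_adjacent_intervals (hI k.t k'.t) (hI _ _), trapIn]
    refine add_le_add ?_ ((trapIn_le lo hi r k' h.2.2).trans (le_of_eq ?_))
    · split_ifs with hin
      · rw [← integral_seg h]
        refine le_of_eq (intervalIntegral.integral_congr fun x hx => ?_)
        rw [uIcc_of_le h.2.1.le] at hx
        rw [indicator_of_mem (show x ∈ Icc lo hi from ⟨hin.1.trans hx.1, hx.2.trans hin.2⟩)]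
      · exact intervalIntegral.integral_nonneg h.2.1.le fun x _ => h0 x
    · refine intervalIntegral.integral_congr fun x hx => ?_
      rw [uIcc_of_le hle] at hx
      have e : interp Knot.s (k' :: r) x = interp Knot.s (k :: k' :: r) x := by
        by_cases hx' : x ≤ k'.t
        · obtain rfl : x = k'.t := le_antisymm hx' hx.1
          rw [Calib.interp_first _ r k' h.2.2]
          simp only [interp, if_pos le_rfl, Calib.clamp_of_mem h.2.1 h.2.1.le le_rfl,
            div_self (sub_pos.2 h.2.1).ne', lerp]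
          ring
        · simp only [interp, if_neg hx']
      by_cases hm : x ∈ Icc lo hi <;> simp [hm, e]

/-- **T1 from nodes.** The knots cover all slice areas, `[lo, hi]` lies between the end areas. -/
theorem master_nodes {D : Set R3} {M : ℝ} {i j : Fin 3} (h : IsReduced D M) (hij : i ≠ j)
    {a b G lam E mu qlo q lo hi : ℝ}
    (ha : Tendsto (sliceArea D i j) (𝓝[<] 1) (𝓝 a))
    (hb : Tendsto (sliceArea D i j) (𝓝[>] 0) (𝓝 b))
    (hG : ∫ z in (0 : ℝ)..1, bandWidth D i j z ≤ G) (hmu : 0 ≤ mu) (hqlo : qlo ≤ 1 / π)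
    (hq : 1 / π ≤ q) {k : Knot} {r : List Knot} (hr : r ≠ []) (hv : Valid (k :: r))
    (hd : Checked lam E mu qlo q (k :: r)) (hk0 : 0 ≤ k.t) (hlast : lastT k r ≤ 1)
    (hka : k.t ≤ a) (hbl : b ≤ lastT k r) (hlo : a ≤ lo) (hhi : hi ≤ b) :
    lam * boxVolume D + E - mu * G + trapIn lo hi (k :: r) ≤ M := by
  have hab : a ≤ b := by
    have := sliceArea_between h ha hb (z := 1 / 2) ⟨by norm_num, by norm_num⟩
    exact this.1.trans this.2
  have hcc : Continuous (cFun (k :: r)) :=
    (Calib.continuous_interp (fun k => k.c ^ 2) _ hv).sqrt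
  have hs := Calib.continuous_interp Knot.s _ hv
  have hc1 : ∀ t, cFun (k :: r) t ≤ 1 := fun t => Real.sqrt_le_one.2 (by
    nlinarith [(sq_disc _ hv t).2, sq_nonneg (interp Knot.s (k :: r) t)])
  have hcond : ∀ t ∈ Icc a b, _ := fun t ht =>
    cond_on hmu hqlo hq r k hr hv hd hk0 t (hka.trans ht.1) (ht.2.trans hbl) hlast
  have hm := master h hij ha hb hG hmu (c := cFun (k :: r)) hcc.continuousOn
    (fun t _ => Real.sqrt_nonneg _) (fun t _ => hc1 t) (fun t ht => (hcond t ht).1)
    (fun t ht => (hcond t ht).2)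
  refine le_trans ?_ hm
  refine add_le_add_right ((trapIn_le lo hi r k hv).trans ?_) _
  have hnn : ∀ t, 0 ≤ interp Knot.s (k :: r) t := fun t => (Calib.interp_disc _ hv t).2.1
  calc ∫ x in k.t..lastT k r, (Icc lo hi).indicator (interp Knot.s (k :: r)) x
      ≤ ∫ x in k.t..lastT k r, (Icc a b).indicator (interp Knot.s (k :: r)) x := by
        refine intervalIntegral.integral_mono_on (lastT_ge r k hv) ?_ ?_ fun x _ =>
          indicator_le_indicator_of_subset (Icc_subset_Icc hlo hhi) hnn x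
        all_goals
          have := hs.intervalIntegrable (μ := volume) k.t (lastT k r)
          rw [intervalIntegrable_iff] at this ⊢
          exact this.indicator measurableSet_Icc
    _ = ∫ x in a..b, interp Knot.s (k :: r) x := by
        rw [intervalIntegral.integral_of_le (lastT_ge r k hv), intervalIntegral.integral_of_le hab,
          ← integral_Icc_eq_integral_Ioc, ← integral_Icc_eq_integral_Ioc,
          setIntegral_indicator measurableSet_Icc,
          inter_eq_right.2 (Icc_subset_Icc hka hbl)]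
    _ ≤ ∫ x in a..b, Real.sqrt (1 - cFun (k :: r) x ^ 2) := by
        refine intervalIntegral.integral_mono_on hab (hs.intervalIntegrable a b)
          ((Continuous.sqrt (by fun_prop)).intervalIntegrable a b) fun x _ => ?_
        refine Real.le_sqrt_of_sq_le ?_
        rw [cFun, Real.sq_sqrt (sq_disc _ hv x).1]
        linarith [(sq_disc _ hv x).2]

/-! ## Rational front end -/

/-- Rational form of (i): `r ≤ √(π min (t, 1 - t))` is witnessed by `r² ≤ π₀ min (t, 1 - t)`. -/
theorem condI_of_rat {lam E p0 r : ℚ} {k : QKnot} (hc : 0 ≤ k.c) (hp0 : (p0 : ℝ) ≤ π)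
    (hm : 0 ≤ k.t ∧ k.t ≤ 1) (hr : r * r ≤ p0 * min k.t (1 - k.t))
    (hL : lam * k.t + E ≤ k.c * r) : CondI lam E k.real := by
  simp only [CondI, QKnot.real]
  have hc' : (0 : ℝ) ≤ k.c := by exact_mod_cast hc
  have hm0 : (0 : ℝ) ≤ k.t := by exact_mod_cast hm.1
  have hm1 : (k.t : ℝ) ≤ 1 := by exact_mod_cast hm.2
  have hr' : (r : ℝ) * r ≤ (p0 : ℝ) * min (k.t : ℝ) (1 - k.t) := by exact_mod_cast hr
  have hL' : (lam : ℝ) * k.t + E ≤ k.c * r := by exact_mod_cast hL
  refine hL'.trans (mul_le_mul_of_nonneg_left (Real.le_sqrt_of_sq_le ?_) hc')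
  calc (r : ℝ) ^ 2 = r * r := by ring
    _ ≤ _ := hr'.trans (mul_le_mul_of_nonneg_right hp0 (le_min hm0 (by linarith)))

theorem condII_of_rat {lam E mu q : ℚ} {k : QKnot}
    (h : lam * k.t + E - mu * (k.t - q) ≤ k.c) : CondII lam E mu q k.real := by
  simp only [CondII, QKnot.real]
  exact_mod_cast h

/-- Executable trapezoids inside `[lo, hi]`. -/
def qTrapIn (lo hi : ℚ) : List QKnot → ℚ
  | [] => 0
  | [_] => 0
  | k :: k' :: r =>
    (if lo ≤ k.t ∧ k'.t ≤ hi then (k'.t - k.t) * (k.s + k'.s) / 2 else 0) + qTrapIn lo hi (k' :: r)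

theorem trapIn_map (lo hi : ℚ) :
    ∀ l : List QKnot, trapIn lo hi (l.map QKnot.real) = (qTrapIn lo hi l : ℝ)
  | [] => by simp [trapIn, qTrapIn]
  | [_] => by simp [trapIn, qTrapIn]
  | k :: k' :: r => by
    have := trapIn_map lo hi (k' :: r)
    simp only [List.map] at this ⊢
    simp only [trapIn, qTrapIn]
    rw [this]
    simp only [QKnot.real, Rat.cast_le]
    split_ifs <;> push_cast <;> rfl

end Vale.Agent.P232.T1
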